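import Vale.Agent.P106.R.E.Defs
import Vale.Agent.P122.H518.ChainS

/-! # P106 / R / E5 : assembly (helper377, after helper369 and helper377 in P122)

* `E5Up C`, `E5Dn C` : transfer of the density bounds between the levels (geometry, helper327).
* `e5Pin` : the excess of a regular system is pinned by its boxes: `e c ≤ e' + 1 / K` for every bound `e'` of the densities.
* `E5_of : 0 ≤ A + 1 → E1 → E2 → E5Up C → E5Dn C → E5 A (max C 1 + 6)`. -/

set_option autoImplicit false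

namespace Vale.Agent.P106.R.H377

open Filter Topology Finset Vale.Agent.P127 Vale.Agent.P127.Stk Vale.Agent.P127.U Vale.Agent.P127.U.Sys
  Vale.Agent.P106.R.C2 Vale.Agent.P106.R.E
open Vale.Agent.P106.W (Cbx)
open Vale.Agent.P122.H518 (ftr fpr ffst fsnd)

/-- (up) a bound of the densities at the level `j` gives a bound at the lower level `i` -/
def E5Up (C : ℝ) : Prop := ∀ {K : ℕ} (F : Flg K) (i j : ℕ) (e : ℝ), 1 ≤ K → i ≤ j → j ≤ K → 0 ≤ e → ExU F j e →
  ExU F i (e + C * ((j:ℝ) - i) / K)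

/-- (down) a bound of the densities at the level `i` gives a bound at the higher level `j` -/
def E5Dn (C : ℝ) : Prop := ∀ {K : ℕ} (F : Flg K) (i j : ℕ) (e : ℝ), 1 ≤ K → i ≤ j → j ≤ K → 0 ≤ e → ExU F i e →
  ExU F j (e + C * ((j:ℝ) - i) / K)

/-! ### counts and entropies -/

theorem law_pos {Ω : Type} [Fintype Ω] (P : Law Ω) : ∃ ω, 0 < P.w ω := by
  by_contra hcon
  push Not at hcon
  have : ∑ ω, P.w ω ≤ 0 := Finset.sum_nonpos fun ω _ => hcon ω
  rw [P.sum_one] at this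
  linarith

theorem fin_hc_le {Ω : Type} [Fintype Ω] (P : Law Ω) {α β : Type*} (X : Ω → α) (Z : Ω → β) (M : ℝ)
    (h : ∀ ω, 0 < P.w ω → ∃ U : Finset α, (U.card : ℝ) ≤ M ∧
      ∀ ω', 0 < P.w ω' → Z ω' = Z ω → X ω' ∈ U) : Stk.hc P X Z ≤ Real.log M := by
  obtain ⟨ω0, hω0⟩ := law_pos P
  obtain ⟨U0, hU0, hU0'⟩ := h ω0 hω0
  have h1 : 1 ≤ U0.card := Finset.card_pos.2 ⟨_, hU0' ω0 hω0 rfl⟩
  have h2 : (1 : ℝ) ≤ M := by
    refine le_trans ?_ hU0
    exact_mod_cast h1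
  have h3 : Stk.hc P X Z ≤ Real.log (⌊M⌋₊ : ℝ) := by
    refine Stk.hc_le_log P X Z ⌊M⌋₊ fun ω hω => ?_
    obtain ⟨U, hU, hU'⟩ := h ω hω
    exact ⟨U, Nat.le_floor hU, hU'⟩
  refine h3.trans (Real.log_le_log ?_ (Nat.floor_le (by linarith)))
  have : 1 ≤ ⌊M⌋₊ := Nat.le_floor (by exact_mod_cast h2)
  exact_mod_cast this

section counts

variable {S : Sys} {α β γ : Type*}

theorem log_two_pow (x : ℝ) : Real.log ((2 : ℝ) ^ x) = x * Real.log 2 :=
  Real.log_rpow (by norm_num) x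

theorem cnt_ev {X : S.RV α} {Z : S.RV β} {r : ℝ} (h : Cnt S X Z r) {ε : ℝ} (hε : 0 < ε) :
    ∀ᶠ i in (uf : Filter ℕ), Stk.hc (S.P i) (X i) (Z i) ≤ (r + ε) * S.nm i := by
  filter_upwards [h ε hε] with i hi
  have h1 := fin_hc_le (S.P i) (X i) (Z i) _ hi
  rw [log_two_pow] at h1
  unfold Sys.nm
  linarith

theorem stk_hc_one {Ω : Type} [Fintype Ω] (P : Law Ω) (X : Ω → α) :
    Stk.hc P X (fun _ => ()) = P.H X := by
  unfold Stk.hc
  have h1 : P.H (fun _ : Ω => ()) = 0 := by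
    have h2 : P.H (fun _ : Ω => ()) ≤ Real.log (Fintype.card Unit) := P.H_le_log_card _
    simp only [Fintype.card_unit, Nat.cast_one, Real.log_one] at h2
    exact le_antisymm h2 (P.H_nonneg _)
  rw [h1, sub_zero]
  refine P.H_congr fun ω ω' => ?_
  simp

theorem cnt_tame {X : S.RV α} {r : ℝ} (h : Cnt S X (one (S := S)) r) : Tame X := by
  refine ⟨r + 1, ?_⟩
  filter_upwards [cnt_ev h one_pos] with i hi
  have h1 : Stk.hc (S.P i) (X i) ((one (S := S)) i) = (S.P i).H (X i) := stk_hc_one _ _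
  rwa [h1] at hi

theorem ub_of_cnt {X : S.RV α} {Z : S.RV β} {r : ℝ} (h : Cnt S X Z r) :
    UB fun i => Stk.hc (S.P i) (X i) (Z i) / S.nm i := by
  refine UB.of_le (C := r + 1) ?_ ?_
  · filter_upwards [S.nm_pos] with i hi
    exact div_nonneg (Stk.hc_nonneg _ _ _) hi.le
  · filter_upwards [S.nm_pos, cnt_ev h one_pos] with i hi h1
    rw [div_le_iff₀ hi]
    exact h1

/-- a count is an upper bound of the entropy -/
theorem cnt_hc_le {X : S.RV α} {Z : S.RV β} {r : ℝ} (h : Cnt S X Z r) : S.hc X Z ≤ r := by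
  refine le_of_forall_pos_le_add fun ε hε => ?_
  refine ulim_le_const (ub_of_cnt h) ?_
  filter_upwards [S.nm_pos, cnt_ev h hε] with i hi h1
  rw [div_le_iff₀ hi]
  exact h1

end counts

/-! ### the number of children and the growth of `H` -/

section flg

variable {K : ℕ} (F : Flg K)

theorem cnt_kids (hK : 1 ≤ K) {c : ℕ} (hc : c < K) : Cnt F.S (F.Y (c + 1)) (F.N c) (2 / K) := by
  have hKp : (0 : ℝ) < K := by exact_mod_cast hK
  intro ε hε
  refine Eventually.of_forall fun i ω hω => ⟨kids (F.n i) (F.N c i ω).τ, ?_, ?_⟩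
  · have h1 : (kids (F.n i) (F.N c i ω).τ).card = 2 ^ (2 * F.n i) := by
      unfold kids
      rw [Fintype.card_piFinset]
      have h : ∀ k, (Finset.Ico (2 ^ F.n i * (F.N c i ω).τ k) (2 ^ F.n i * ((F.N c i ω).τ k + 1))).card = 2 ^ F.n i := by
        intro k
        rw [Int.card_Ico]
        have h2 : 2 ^ F.n i * ((F.N c i ω).τ k + 1) - 2 ^ F.n i * (F.N c i ω).τ k = ((2 ^ F.n i : ℕ) : ℤ) := by
          push_cast
          ring
        rw [h2, Int.toNat_natCast]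
      simp only [h, Fin.prod_univ_two]
      rw [← pow_add]
      congr 1
      ring
    rw [h1]
    have h2 : ((2 ^ (2 * F.n i) : ℕ) : ℝ) = (2 : ℝ) ^ ((2 / K) * (F.S.L i : ℝ)) := by
      rw [F.L_eq i]
      push_cast
      have h3 : (2 : ℝ) / K * (K * F.n i) = ((2 * F.n i : ℕ) : ℝ) := by
        push_cast
        field_simp
      rw [h3, Real.rpow_natCast]
    rw [h2]
    refine Real.rpow_le_rpow_of_exponent_le (by norm_num) ?_
    have h4 : (0 : ℝ) ≤ F.S.L i := Nat.cast_nonneg _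
    nlinarith
  · intro ω' hω' e
    have e1 : F.N c i ω' = F.N c i ω := e
    have h1 := (F.step i ω' hω' c hc).1
    rw [e1] at h1
    exact h1

variable {F} {J θ H e : ℕ → ℝ} {W : ℕ → F.S.RV Cbx} {kk jj : ℕ → ℕ → ℕ}

/-- one step: `H (c + 1) ≤ H c + 2 / K` -/
theorem H_succ (hE1 : E1) (hK : 1 ≤ K) (hA : RegA F J θ H e W kk jj) {c : ℕ} (hc : c < K) :
    H (c + 1) ≤ H c + 2 / K := by
  have e1 := (hE1 F J θ H e W kk jj hK hA).1
  have t1 := cnt_tame (hA.N1 c hc.le)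
  have t2 := cnt_tame (hA.N1 (c + 1) hc)
  have tY : Sys.Tame (F.Y (c + 1)) :=
    t2.mono (Eventually.of_forall fun _ _ _ _ _ e => congrArg Nd.τ e)
  have f1 : Sys.Fn (F.N (c + 1)) (Sys.pr (F.N c) (F.Y (c + 1))) := by
    refine Eventually.of_forall fun i ω ω' hω hω' e => ?_
    have e1 : F.N c i ω = F.N c i ω' := congrArg Prod.fst e
    have e2 : (F.N (c + 1) i ω).τ = (F.N (c + 1) i ω').τ := congrArg Prod.snd e
    rw [(F.step i ω hω c hc).2, (F.step i ω' hω' c hc).2, e1, e2]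
  have g1 : F.S.hc (F.N (c + 1)) (one (S := F.S)) ≤ F.S.hc (Sys.pr (F.N c) (F.Y (c + 1))) (one (S := F.S)) :=
    hc_mono_left (t1.pr tY) t2 (ftr f1 (ffst _ _))
  have g2 := hc_pair t1 tY (one (S := F.S))
  have g3 : F.S.hc (F.Y (c + 1)) (Sys.pr (F.N c) (one (S := F.S))) ≤ F.S.hc (F.Y (c + 1)) (F.N c) :=
    hc_mono_right tY (ffst _ _)
  have g4 := cnt_hc_le (cnt_kids F hK hc)
  rw [e1 c hc.le] at g2
  rw [e1 (c + 1) hc] at g1
  linarith

/-- `H j ≤ H i + 2 (j - i) / K` -/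
theorem H_le (hE1 : E1) (hK : 1 ≤ K) (hA : RegA F J θ H e W kk jj) {i j : ℕ} (hij : i ≤ j) (hj : j ≤ K) :
    H j ≤ H i + 2 * ((j : ℝ) - i) / K := by
  induction j, hij using Nat.le_induction with
  | base => simp
  | succ j hij ih =>
    have g1 := ih (by omega)
    have g2 := H_succ hE1 hK hA (c := j) (by omega)
    have g3 : 2 * (((j + 1 : ℕ) : ℝ) - i) / K = 2 * ((j : ℝ) - i) / K + 2 / K := by push_cast; ring
    rw [g3]
    linarith

/-! ### the excess is pinned by the boxes -/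

/-- the volume of a box of widths at most `2^(-k)`, `2^(-j)` -/
theorem bvol_le {s : Sl} {n c k j : ℕ} {B : Cbx} (hkj : k ≤ j) (hj : j ≤ c * n) (h1 : 0 ≤ B.u2)
    (hk : B.u2 ≤ (1 / 2 : ℝ) ^ k) (hj' : B.u1 ≤ (1 / 2 : ℝ) ^ j) :
    bvol s n c B ≤ (2 : ℝ) ^ (vx s.h n c k j) := by
  unfold bvol W.Cbx.vol vx W.hh
  rw [pow_add]
  have hr : (0 : ℝ) < ((1 / 2 : ℝ) ^ (c * n)) ^ 2 := by positivity
  have a1 : B.u1 * B.u2 / ((1 / 2 : ℝ) ^ (c * n)) ^ 2 ≤ (2 : ℝ) ^ (2 * c * n - (k + j)) := by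
    rw [div_le_iff₀ hr]
    have e1 : (2 : ℝ) ^ (2 * c * n - (k + j)) * ((1 / 2 : ℝ) ^ (c * n)) ^ 2 = (1 / 2 : ℝ) ^ k * (1 / 2 : ℝ) ^ j := by
      have hkj2 : k + j ≤ 2 * c * n := by nlinarith
      have e2 : (2 : ℝ) ^ (2 * c * n) = 2 ^ (2 * c * n - (k + j)) * 2 ^ (k + j) := by
        rw [← pow_add, Nat.sub_add_cancel hkj2]
      have e3 : ((1 / 2 : ℝ) ^ (c * n)) ^ 2 = 1 / 2 ^ (2 * c * n) := by
        rw [← pow_mul, one_div_pow]
        congr 2
        ring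
      rw [e3, e2, one_div_pow, one_div_pow, pow_add 2 k j]
      field_simp
    rw [e1]
    calc B.u1 * B.u2 ≤ (1 / 2 : ℝ) ^ j * (1 / 2 : ℝ) ^ k := mul_le_mul hj' hk h1 (by positivity)
      _ = _ := mul_comm _ _
  have a2 : max 1 (B.u2 ^ 2 / (2 ^ (s.h * n) / 2 ^ (2 * c * n))) ≤ (2 : ℝ) ^ (2 * c * n - (s.h * n + 2 * k)) := by
    refine max_le (one_le_pow₀ (by norm_num)) ?_
    rw [div_div_eq_mul_div, div_le_iff₀ (by positivity)]
    have b1 : B.u2 ^ 2 ≤ ((1 / 2 : ℝ) ^ k) ^ 2 := pow_le_pow_left₀ h1 hk 2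
    have b2 : ((1 / 2 : ℝ) ^ k) ^ 2 = 1 / 2 ^ (2 * k) := by
      rw [← pow_mul, one_div_pow]
      congr 2
      ring
    rw [b2] at b1
    calc B.u2 ^ 2 * 2 ^ (2 * c * n) ≤ 1 / 2 ^ (2 * k) * 2 ^ (2 * c * n) :=
          mul_le_mul_of_nonneg_right b1 (by positivity)
      _ ≤ 2 ^ (2 * c * n - (s.h * n + 2 * k)) * 2 ^ (s.h * n) := by
          rw [one_div, inv_mul_le_iff₀ (by positivity), ← pow_add, ← pow_add]
          exact pow_le_pow_right₀ (by norm_num) (by omega)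
  exact mul_le_mul a1 a2 (le_trans zero_le_one (le_max_left _ _)) (by positivity)

theorem vx_le (h n c k j : ℕ) : vx h n c k j ≤ 4 * (c * n) := by
  unfold vx
  have : 2 * c * n = 2 * (c * n) := by ring
  omega

theorem ub_vx (F : Flg K) {c : ℕ} (hc : c ≤ K) (k j : ℕ → ℕ) :
    UB fun i => (vx F.h (F.n i) c (k i) (j i) : ℝ) / F.S.L i := by
  refine UB.of_le (C := 4) (Eventually.of_forall fun i => by positivity) ?_
  filter_upwards [F.S.L_pos] with i h2
  have h2' : (0 : ℝ) < F.S.L i := by exact_mod_cast h2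
  rw [div_le_iff₀ h2']
  have h3 : vx F.h (F.n i) c (k i) (j i) ≤ 4 * F.S.L i := by
    refine (vx_le _ _ _ _ _).trans ?_
    rw [F.L_eq i]
    exact Nat.mul_le_mul_left _ (Nat.mul_le_mul_right _ hc)
  exact_mod_cast h3

/-- planks of level `c` in the optimal box: count -/
theorem cnt_box (hA : RegA F J θ H e W kk jj) {c : ℕ} {e' : ℝ} (hc : c ≤ K) (hE : ExU F c e') {r : ℝ}
    (hr : F.S.nu (fun i => vx F.h (F.n i) c (kk c i) (jj c i)) < r) :
    Cnt F.S (F.N c) (Sys.pr (W c) (F.ball c)) (e' + r) := by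
  intro ε hε
  have h1 := hE ε hε
  have h2 : ∀ᶠ i in (uf : Filter ℕ), (vx F.h (F.n i) c (kk c i) (jj c i) : ℝ) / F.S.L i < r :=
    ulim_lt_eventually (ub_vx F hc (kk c) (jj c)) hr
  filter_upwards [h1, h2, hA.Wok c hc, F.S.L_pos] with i g1 g2 g3 g4 ω hω
  classical
  have hL : (0 : ℝ) < F.S.L i := by exact_mod_cast g4
  obtain ⟨o1, o2, ⟨-, o3⟩, ⟨-, o4⟩, o5, o6⟩ := g3 ω hω
  have hu1 : 0 ≤ (W c i ω).u1 := le_trans (by positivity) o2.r1
  have hu2 : 0 ≤ (W c i ω).u2 := hu1.trans o2.u12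
  have hv := bvol_le (s := F.s i) o5 o6 hu2 o3 o4
  rw [F.hs i] at hv
  have hv2 : bvol (F.s i) (F.n i) c (W c i ω) ≤ (2 : ℝ) ^ (r * F.S.L i) := by
    refine hv.trans ?_
    rw [← Real.rpow_natCast]
    refine Real.rpow_le_rpow_of_exponent_le (by norm_num) ?_
    rw [div_lt_iff₀ hL] at g2
    exact g2.le
  refine ⟨Finset.univ.filter (fun ω' => 0 < (F.S.P i).w ω' ∧ (W c i ω', F.T c i ω') = (W c i ω, F.T c i ω)) |>.image
    (F.N c i), ?_, ?_⟩
  · have g5 := g1 (W c i ω) (F.T c i ω) (Finset.univ.filter (fun ω' => 0 < (F.S.P i).w ω' ∧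
      (W c i ω', F.T c i ω') = (W c i ω, F.T c i ω)) |>.image (F.N c i)) o2 (fun S hS => by
        obtain ⟨ω', hω', rfl⟩ := Finset.mem_image.1 hS
        rw [Finset.mem_filter] at hω'
        obtain ⟨-, p1, p2⟩ := hω'
        refine ⟨⟨ω', p1, rfl⟩, congrArg Prod.snd p2, ?_⟩
        have p3 := (g3 ω' p1).1
        have p4 : W c i ω' = W c i ω := congrArg Prod.fst p2
        rwa [p4] at p3)
    refine g5.trans ?_
    calc (2 : ℝ) ^ ((e' + ε) * F.S.L i) * bvol (F.s i) (F.n i) c (W c i ω)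
        ≤ (2 : ℝ) ^ ((e' + ε) * F.S.L i) * (2 : ℝ) ^ (r * F.S.L i) := mul_le_mul_of_nonneg_left hv2 (by positivity)
      _ = (2 : ℝ) ^ ((e' + r + ε) * F.S.L i) := by
          rw [← Real.rpow_add (by norm_num)]
          congr 1
          ring
  · intro ω' hω' e
    refine Finset.mem_image.2 ⟨ω', ?_, rfl⟩
    rw [Finset.mem_filter]
    exact ⟨Finset.mem_univ _, hω', e⟩

/-- **E5Pin** -/
theorem e5Pin (hE1 : E1) (hK : 1 ≤ K) (hA : RegA F J θ H e W kk jj) {c : ℕ} {e' : ℝ} (hc : c ≤ K)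
    (hE : ExU F c e') : e c ≤ e' + 1 / K := by
  have tN : Tame (F.N c) := cnt_tame (hA.N1 c hc)
  have tY : Tame (Sys.pr (W c) (F.ball c)) := cnt_tame (hA.W1 c hc)
  have g1 : F.S.hc (F.N c) (one (S := F.S)) = H c := (hE1 F J θ H e W kk jj hK hA).1 c hc
  have g2 := cnt_hc_le (hA.W1 c hc)
  have g3 := hc_le_add tN tY (one (S := F.S))
  have g4 : F.S.hc (F.N c) (Sys.pr (Sys.pr (W c) (F.ball c)) (one (S := F.S))) ≤
      F.S.hc (F.N c) (Sys.pr (W c) (F.ball c)) := hc_mono_right tN (ffst _ _)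
  have g5 : F.S.hc (F.N c) (Sys.pr (W c) (F.ball c)) ≤
      e' + F.S.nu (fun i => vx F.h (F.n i) c (kk c i) (jj c i)) := by
    refine le_of_forall_pos_le_add fun ε hε => ?_
    have := cnt_hc_le (cnt_box hA hc hE (r := F.S.nu (fun i => vx F.h (F.n i) c (kk c i) (jj c i)) + ε)
      (by linarith))
    linarith
  linarith

end flg

/-! ### assembly -/

/-- part (1) of `E5` -/
theorem e5Lip_of {C : ℝ} (hE1 : E1) (hU : E5Up C) (hD : E5Dn C) {K : ℕ} (F : Flg K) (J θ H e : ℕ → ℝ)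
    (W : ℕ → F.S.RV Cbx) (kk jj : ℕ → ℕ → ℕ) (hK : 1 ≤ K) (h : RegA F J θ H e W kk jj) (i j : ℕ) (hi : i ≤ K)
    (hj : j ≤ K) : |e i - e j| ≤ max C 1 * |(i:ℝ) - j| / K + max C 1 / K := by
  have hK0 : (0:ℝ) < K := by exact_mod_cast hK
  have main : ∀ i j, i ≤ j → j ≤ K → |e i - e j| ≤ max C 1 * ((j:ℝ) - i) / K + max C 1 / K := by
    intro i j hij hj
    have hij' : (0:ℝ) ≤ (j:ℝ) - i := by
      have : (i:ℝ) ≤ j := by exact_mod_cast hij
      linarith
    have h1 := e5Pin hE1 hK h (hij.trans hj) (hU F i j _ hK hij hj (h.e0 j hj) (h.exU j hj))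
    have h2 := e5Pin hE1 hK h hj (hD F i j _ hK hij hj (h.e0 i (hij.trans hj)) (h.exU i (hij.trans hj)))
    have h3 : C * ((j:ℝ) - i) / K ≤ max C 1 * ((j:ℝ) - i) / K := by
      apply div_le_div_of_nonneg_right _ hK0.le
      exact mul_le_mul_of_nonneg_right (le_max_left _ _) hij'
    have h4 : (1:ℝ) / K ≤ max C 1 / K := div_le_div_of_nonneg_right (le_max_right _ _) hK0.le
    rw [abs_le]
    constructor <;> linarith
  rcases le_total i j with hij | hij
  · have := main i j hij hj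
    have h5 : |(i:ℝ) - j| = (j:ℝ) - i := by
      rw [abs_sub_comm, abs_of_nonneg]
      have : (i:ℝ) ≤ j := by exact_mod_cast hij
      linarith
    rw [h5]; exact this
  · have := main j i hij hi
    have h5 : |(i:ℝ) - j| = (i:ℝ) - j := by
      rw [abs_of_nonneg]
      have : (j:ℝ) ≤ i := by exact_mod_cast hij
      linarith
    rw [h5, abs_sub_comm]; exact this

/-- **E5** from the two density transfers -/
theorem E5_of {A C : ℝ} (hA1 : 0 ≤ A + 1) (hE1 : E1) (hE2 : E2) (hU : E5Up C) (hD : E5Dn C) :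
    E5 A (max C 1 + 6) := by
  intro K F J θ H e W kk jj hK hA
  set B := max C 1 with hB
  have hKp : (0 : ℝ) < K := by exact_mod_cast hK
  have hl := e5Lip_of hE1 @hU @hD F J θ H e W kk jj hK hA
  have hm := hE2 F J θ H e W kk jj hK hA
  have h0 : nE K J θ H 0 = 0 := by
    unfold nE nM
    simp
  have hC : 0 ≤ B := le_trans zero_le_one (le_max_right _ _)
  have key : ∀ i j, i ≤ j → j ≤ K →
      nV K H e j ≤ nV K H e i + (A + 1) * (nE K J θ H j - nE K J θ H i) + (B + 6) * ((j:ℝ) - i) / K + (B + 6) / K := by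
    intro i j hij hj
    have g1 := hl j i hj (hij.trans hj)
    have g2 : 0 ≤ (A + 1) * (nE K J θ H j - nE K J θ H i) := mul_nonneg hA1 (sub_nonneg.2 (hm i j hij hj))
    have g3 := H_le hE1 hK hA hij hj
    have hij' : (i : ℝ) ≤ j := by exact_mod_cast hij
    rw [abs_of_nonneg (sub_nonneg.2 hij')] at g1
    have g4 := (abs_le.1 g1).1
    unfold nV
    have e1 : (B + 6) * ((j:ℝ) - i) / K = B * ((j:ℝ) - i) / K + 2 * ((j:ℝ) - i) / K + (4 * j / K - 4 * i / K) := by ring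
    have e2 : (B + 6) / K = B / K + 6 / K := by ring
    have e3 : 0 ≤ 6 / (K : ℝ) := by positivity
    rw [e1, e2]
    linarith
  refine ⟨fun i j hi hj => (hl i j hi hj).trans ?_, fun i hi => ?_, fun i j hij _ hj => key i j hij hj⟩
  · have e1 : B * |(i:ℝ) - j| / K ≤ (B + 6) * |(i:ℝ) - j| / K := by
      apply div_le_div_of_nonneg_right _ hKp.le
      exact mul_le_mul_of_nonneg_right (by linarith) (abs_nonneg _)
    have e2 : B / K ≤ (B + 6) / K := div_le_div_of_nonneg_right (by linarith) hKp.le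
    linarith
  · have := key 0 i (Nat.zero_le _) hi
    rw [h0] at this
    simpa using this

end Vale.Agent.P106.R.H377
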